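import Crest.Agent.N222.G.Graph1

/-!
# Row 222, delta-calculus of graphs : Codazzi, Gauss, Jacobi (statements helper10, proofs helper36)
-/

set_option autoImplicit false
set_option linter.unusedSectionVars false

noncomputable section

namespace Crest.Agent.N222.Pre.IsDS

variable {R : Type} [CommRing R] [Algebra ℝ R] {ι : Type} [Fintype ι] [DecidableEq ι]
  {S : Pre R ι}

theorem sum_Rm (p q r x : ι → R) :
    ∑ a, ∑ b, ∑ c, ∑ e, p a * q b * r c * S.Rm a b e c * x e =
      ∑ k, ((∑ a, ∑ c, p a * r c * S.II a c k) * (∑ b, ∑ e, q b * S.II b e k * x e)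
        - (∑ a, ∑ e, p a * S.II a e k * x e) * ∑ b, ∑ c, q b * r c * S.II b c k) := by
  simp only [Pre.Rm, Finset.mul_sum _ _ (_ * r _), Finset.sum_mul _ _ (x _)]
  rw [Finset.sum_congr rfl fun a _ => Finset.sum_congr rfl fun b _ => Finset.sum_comm_cycle,
    Finset.sum_comm_cycle]
  refine Finset.sum_congr rfl fun k _ => ?_
  rw [Finset.sum_mul_sum, Finset.sum_mul_sum, ← Finset.sum_sub_distrib]
  refine Finset.sum_congr rfl fun a _ => ?_
  rw [← Finset.sum_sub_distrib]
  refine Finset.sum_congr rfl fun b _ => ?_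
  rw [mul_comm (∑ e, p a * S.II a e k * x e), Finset.sum_mul_sum, Finset.sum_mul_sum,
    ← Finset.sum_sub_distrib]
  refine Finset.sum_congr rfl fun c _ => ?_
  rw [← Finset.sum_sub_distrib]
  exact Finset.sum_congr rfl fun e _ => by ring

theorem nab2_symm {T : ι → ι → R} (hT : ∀ a b, T a b = T b a) (a b c : ι) :
    S.nab2 T a b c = S.nab2 T a c b := by
  rw [Pre.nab2, Pre.nab2, Finset.sum_comm]
  exact Finset.sum_congr rfl fun e _ => Finset.sum_congr rfl fun f _ => by rw [hT f e]; ring

variable (h : S.IsDS)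
include h

/-- the divergence of a tangential 2-tensor -/
theorem div_nab2 {T : ι → ι → R} (hT : ∀ a, S.Tan (T a)) (c : ι) :
    ∑ e, S.D e (T e c) = ∑ a, S.nab2 T a a c + ∑ e, ∑ f, S.II e f c * T e f := by
  have e1 : ∑ a, S.nab2 T a a c = ∑ e, ∑ f, S.P c f * S.D e (T e f) := by
    simp only [Pre.nab2]
    rw [Finset.sum_comm]
    refine Finset.sum_congr rfl fun e _ => ?_
    rw [Finset.sum_comm]
    refine Finset.sum_congr rfl fun f _ => ?_
    rw [← h.PD e (T e f), Finset.mul_sum]
    exact Finset.sum_congr rfl fun a _ => by rw [h.symm a e]; ring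
  rw [e1, ← Finset.sum_add_distrib]
  refine Finset.sum_congr rfl fun e _ => ?_
  rw [← hT e c, h.D_sum, ← h.tan_DP (hT e), ← Finset.sum_add_distrib]
  exact Finset.sum_congr rfl fun f _ => h.mul _ _ _

/-- the trace commutes with the covariant derivative -/
theorem tr_nab2 {T : ι → ι → R} (hT : ∀ a, S.Tan (T a)) (hT' : ∀ b, S.Tan fun a => T a b)
    (c : ι) : ∑ a, S.nab2 T c a a = S.D c (∑ a, T a a) := by
  have e1 : ∑ a, S.nab2 T c a a = ∑ e, ∑ f, S.P e f * S.D c (T e f) := by
    simp only [Pre.nab2]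
    rw [Finset.sum_comm]
    refine Finset.sum_congr rfl fun e _ => ?_
    rw [Finset.sum_comm]
    refine Finset.sum_congr rfl fun f _ => ?_
    rw [← Finset.sum_mul, ← h.PP e f]
    simp only [h.symm _ e]
  have e2 : ∀ e, S.D c (T e e) = ∑ f, S.P e f * S.D c (T e f) + ∑ f, S.II c f e * T e f := by
    intro e
    rw [← hT e e, h.D_sum, ← h.tan_DP (hT e), ← Finset.sum_add_distrib]
    exact Finset.sum_congr rfl fun f _ => h.mul _ _ _
  rw [e1, h.D_sum]
  simp only [e2, Finset.sum_add_distrib]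
  rw [Finset.sum_comm (f := fun e f => S.II c f e * T e f)]
  simp only [h.II_tan (hT' _), Finset.sum_const_zero, add_zero]

theorem Ric_YY (Y : ι → R) : ∑ a, ∑ b, S.Ric a b * (Y a * Y b) =
    ∑ k, (S.H k * ∑ e, Y e * ∑ c, Y c * S.II c e k
      - ∑ e, (∑ c, Y c * S.II c e k) * ∑ c, Y c * S.II c e k) := by
  have e1 : ∀ b c, S.Ric b c = ∑ k, (S.H k * S.II b c k - ∑ a, S.II a c k * S.II b a k) := by
    intro b c
    simp only [Pre.Ric, Pre.Rm]
    rw [Finset.sum_comm]
    simp only [Finset.sum_sub_distrib, ← Finset.sum_mul, h.tr_II]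
  simp only [e1, Finset.sum_mul _ _ (Y _ * _)]
  rw [Finset.sum_comm_cycle]
  refine Finset.sum_congr rfl fun k _ => ?_
  simp only [sub_mul, Finset.sum_sub_distrib]
  congr 1
  · simp only [Finset.mul_sum]
    rw [Finset.sum_comm]
    exact Finset.sum_congr rfl fun a _ => Finset.sum_congr rfl fun b _ => by ring
  · simp only [Finset.sum_mul _ _ (Y _ * _), Finset.sum_mul_sum]
    rw [Finset.sum_comm_cycle]
    exact Finset.sum_congr rfl fun a _ => Finset.sum_congr rfl fun b _ =>
      Finset.sum_congr rfl fun c _ => by rw [h.II_symm a c]; ring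

variable {u v : R} (hv : v ^ 2 * (1 + S.gam u u) = 1)
include hv

theorem A_tan' (a : Option ι) : (S.graph u v).Tan (S.A u v a) := by
  have := h.A_tan hv a
  simp only [h.A_symm hv _ a] at this
  exact this

theorem Q_none (a : ι) : (S.graph u v).P none (some a) = v * S.X u v a := by
  rw [h.Q_eq]; simp [Pre.Pb, Pre.nu]

/-- pulled back second fundamental forms are normal to `M` -/
theorem tan_pb {Y : ι → R} (hY : S.Tan Y) (p : ι → ι → R) :
    ∑ k, Y k * ∑ m, ∑ n, p m n * S.II m n k = 0 := by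
  simp only [Finset.mul_sum]
  rw [Finset.sum_comm_cycle, Finset.sum_comm_cycle]
  simp only [mul_left_comm (Y _), ← Finset.mul_sum, h.tan_II hY, mul_zero, Finset.sum_const_zero]

theorem P_pb (T : ι → ι → R) (b c : Option ι) :
    ∑ e, ∑ f, (S.graph u v).P b e * (S.graph u v).P c f *
      ∑ m, ∑ n, (S.graph u v).P e (some m) * (S.graph u v).P f (some n) * T m n
      = ∑ m, ∑ n, (S.graph u v).P b (some m) * (S.graph u v).P c (some n) * T m n := by
  have e2 : ∀ e, ∑ f, (S.graph u v).P c f *
      ∑ m, (S.graph u v).P e (some m) * ∑ n, (S.graph u v).P f (some n) * T m n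
      = ∑ m, (S.graph u v).P e (some m) * ∑ n, (S.graph u v).P c (some n) * T m n := by
    intro e
    have : ∀ f, (S.graph u v).P c f *
        ∑ m, (S.graph u v).P e (some m) * ∑ n, (S.graph u v).P f (some n) * T m n
        = ∑ m, (S.graph u v).P e (some m) *
          ((S.graph u v).P c f * ∑ n, (S.graph u v).P f (some n) * T m n) := fun f => by
      rw [Finset.mul_sum]
      exact Finset.sum_congr rfl fun m _ => mul_left_comm _ _ _
    simp only [this]
    rw [Finset.sum_comm]
    simp only [← Finset.mul_sum, h.P_lift hv]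
  simp only [mul_assoc, ← Finset.mul_sum, e2, h.P_lift hv]

theorem nu_pyth (α : R) {t : ι → R} (ht : ∑ k, S.X u v k * t k = 0) :
    ∑ c, (α * S.nu u v c + c.elim 0 t) * (α * S.nu u v c + c.elim 0 t)
      = α ^ 2 + ∑ k, t k * t k := by
  have e : ∀ k, (α * -S.X u v k + t k) * (α * -S.X u v k + t k) =
      α ^ 2 * (S.X u v k * S.X u v k) - 2 * α * (S.X u v k * t k) + t k * t k := fun k => by ring
  simp only [Fintype.sum_option, Pre.nu, Option.elim, e, Finset.sum_add_distrib,
    Finset.sum_sub_distrib, ← Finset.mul_sum, ht, h.X_sq hv]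
  ring

theorem nu_II (e f : Option ι) : ∑ k, S.nu u v k * (S.graph u v).II e f k = S.A u v e f := by
  simp only [h.graph_II hv, mul_add, Finset.sum_add_distrib, mul_left_comm _ (S.A u v e f),
    ← Finset.mul_sum, h.nu_unit hv]
  simp only [Fintype.sum_option, Pre.nu, Option.elim, neg_mul, Finset.sum_neg_distrib,
    h.tan_pb hv (h.tan_X u v)]
  ring

theorem D_A (a e f : Option ι) : (S.graph u v).D a (S.A u v e f) =
    ∑ k, S.nu u v k * (S.graph u v).D a ((S.graph u v).II e f k)
    - ∑ k, (∑ b, ∑ m, (S.graph u v).P a (some b) * S.II b m k * S.X u v m) *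
      ∑ m, ∑ n, (S.graph u v).P e (some m) * (S.graph u v).P f (some n) * S.II m n k := by
  have h' := h.graph_isDS hv
  have e0 : ∑ k, S.X u v k * ∑ b, ∑ m, (S.graph u v).P a (some b) * S.II b m k * S.X u v m
      = 0 := by
    rw [← h.tan_pb hv (h.tan_X u v) fun b m => (S.graph u v).P a (some b) * S.X u v m]
    simp only [mul_right_comm _ (S.X u v _)]
  rw [← h.nu_II hv e f, h'.D_sum]
  simp only [h'.mul, Finset.sum_add_distrib, h.D_nu hv, add_mul, neg_mul, Finset.sum_neg_distrib,
    h'.tan_II (h.A_tan' hv a), neg_zero, zero_add]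
  rw [sub_eq_add_neg]
  congr 1
  simp only [Fintype.sum_option, Option.elim, zero_mul, zero_add, h.graph_II hv, Pre.nu, mul_neg,
    Finset.sum_neg_distrib, neg_mul, mul_add, Finset.sum_add_distrib, neg_neg]
  simp only [mul_left_comm _ (S.A u v e f), ← Finset.mul_sum]
  simp only [mul_comm (∑ b, ∑ m, (S.graph u v).P a (some b) * S.II b m _ * S.X u v m)
    (S.X u v _), e0]
  simp

theorem codazzi0 (a b c : Option ι) :
    (S.graph u v).nab2 (S.A u v) a b c - (S.graph u v).nab2 (S.A u v) b a c =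
      ∑ k, ((∑ m, ∑ n, (S.graph u v).P a (some m) * (S.graph u v).P c (some n) * S.II m n k) *
          (∑ b', ∑ m, (S.graph u v).P b (some b') * S.II b' m k * S.X u v m)
        - (∑ b', ∑ m, (S.graph u v).P a (some b') * S.II b' m k * S.X u v m) *
          ∑ m, ∑ n, (S.graph u v).P b (some m) * (S.graph u v).P c (some n) * S.II m n k) := by
  have h' := h.graph_isDS hv
  have e1 : ∀ a b, (S.graph u v).nab2 (S.A u v) a b c =
      ∑ k, S.nu u v k * (S.graph u v).nab2 ((S.graph u v).hess ((S.graph u v).x k)) a b c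
      - ∑ k, (∑ b', ∑ m, (S.graph u v).P a (some b') * S.II b' m k * S.X u v m) *
        ∑ m, ∑ n, (S.graph u v).P b (some m) * (S.graph u v).P c (some n) * S.II m n k := by
    intro a b
    simp only [Pre.nab2, h.D_A hv, mul_sub, Finset.sum_sub_distrib]
    congr 1
    · simp only [Finset.mul_sum]
      rw [Finset.sum_comm_cycle]
      exact Finset.sum_congr rfl fun k _ => Finset.sum_congr rfl fun e _ =>
        Finset.sum_congr rfl fun f _ => mul_left_comm _ _ _
    · simp only [Finset.mul_sum _ _ ((S.graph u v).P b _ * _)]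
      rw [Finset.sum_comm_cycle]
      refine Finset.sum_congr rfl fun k _ => ?_
      rw [← h.P_pb hv (fun m n => S.II m n k) b c, Finset.mul_sum]
      refine Finset.sum_congr rfl fun e _ => ?_
      rw [Finset.mul_sum]
      exact Finset.sum_congr rfl fun f _ => mul_left_comm _ _ _
  have e2 : ∑ k, S.nu u v k * (S.graph u v).nab2 ((S.graph u v).hess ((S.graph u v).x k)) a b c
      - ∑ k, S.nu u v k * (S.graph u v).nab2 ((S.graph u v).hess ((S.graph u v).x k)) b a c
      = 0 := by
    simp only [← Finset.sum_sub_distrib, ← mul_sub, h'.ricci_hess, Finset.mul_sum]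
    rw [Finset.sum_comm]
    refine Finset.sum_eq_zero fun e _ => ?_
    rw [← mul_zero ((S.graph u v).Rm a b e c), ← h.gP_nu hv e, Finset.mul_sum]
    exact Finset.sum_congr rfl fun k _ => by rw [Pre.P]; ring
  rw [e1, e1, Finset.sum_sub_distrib]
  simp only [mul_comm (∑ m, ∑ n, (S.graph u v).P a (some m) * _ * S.II m n _)]
  linear_combination e2

/-- norm of a pulled back Hessian -/
theorem pb_sq (f : R) :
    ∑ a, ∑ b, (∑ c, ∑ e, (S.graph u v).P a (some c) * (S.graph u v).P b (some e) * S.hess f c e) *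
      (∑ c, ∑ e, (S.graph u v).P a (some c) * (S.graph u v).P b (some e) * S.hess f c e)
      = ∑ c, ∑ e, S.hess f c e * S.hess f c e
        - 2 * ∑ e, (∑ c, S.X u v c * S.hess f c e) * (∑ c, S.X u v c * S.hess f c e)
        + (∑ e, S.X u v e * ∑ c, S.X u v c * S.hess f c e) ^ 2 := by
  have e1 : ∀ b, ∑ c, S.X u v c * ∑ e, (S.graph u v).P b (some e) * S.hess f c e
      = ∑ e, (S.graph u v).P b (some e) * ∑ c, S.X u v c * S.hess f c e := by
    intro b
    simp only [Finset.mul_sum]
    rw [Finset.sum_comm]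
    exact Finset.sum_congr rfl fun e _ => Finset.sum_congr rfl fun c _ => mul_left_comm _ _ _
  have e2 : ∀ c, ∑ e, S.X u v e * S.hess f c e = ∑ e, S.X u v e * S.hess f e c := fun c =>
    Finset.sum_congr rfl fun e _ => by rw [h.hess f c e]
  rw [Finset.sum_comm]
  simp only [mul_assoc ((S.graph u v).P _ _), ← Finset.mul_sum]
  simp only [fun b => h.lift_lift hv
    (tan_sum (fun e => (S.graph u v).P b (some e)) fun e => h.tan_hess' f e),
    Finset.sum_sub_distrib, e1]
  rw [Finset.sum_comm, h.lift_lift hv (tan_sum (S.X u v) fun c => h.tan_hess f c)]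
  simp only [h.lift_lift hv (h.tan_hess f _), Finset.sum_sub_distrib, e2]
  ring

theorem graph_scal : (S.graph u v).scal = S.scal + S.dv (S.X u v) ^ 2 - S.a2 u v
    - 2 * ∑ a, ∑ b, S.Ric a b * (S.X u v a * S.X u v b) := by
  have h' := h.graph_isDS hv
  have eW : ∀ k, ∑ c, ∑ e, S.X u v c * S.X u v e * S.II c e k
      = ∑ e, S.X u v e * ∑ c, S.X u v c * S.II c e k := by
    intro k
    rw [Finset.sum_comm]
    simp only [Finset.mul_sum]
    exact Finset.sum_congr rfl fun e _ => Finset.sum_congr rfl fun c _ => by ring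
  have eH : ∀ c, (S.graph u v).H c = S.dv (S.X u v) * S.nu u v c +
      c.elim 0 fun k => S.H k - ∑ c, ∑ e, S.X u v c * S.X u v e * S.II c e k := by
    intro c
    rw [← h'.tr_II, ← h.tr_A hv]
    simp only [h.graph_II hv, Finset.sum_add_distrib, ← Finset.sum_mul]
    congr 1
    cases c with
    | none => simp
    | some k => exact h.tr_pb_hess hv (S.x k)
  have e0 : ∑ k, S.X u v k * (S.H k - ∑ c, ∑ e, S.X u v c * S.X u v e * S.II c e k) = 0 := by
    simp only [mul_sub, Finset.sum_sub_distrib, h.tan_pb hv (h.tan_X u v),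
      mul_comm (S.X u v _) (S.H _), h.H_tan (h.tan_X u v), sub_zero]
  rw [h'.scal_eq, h.scal_eq, h.Ric_YY]
  simp only [eH, h.nu_pyth hv _ e0, h.graph_II hv,
    h.nu_pyth hv _ (h.tan_pb hv (h.tan_X u v) _), Finset.sum_add_distrib]
  rw [Finset.sum_comm_cycle, Finset.sum_comm_cycle (f := fun a b c => S.II a b c * S.II a b c)]
  simp only [eW]
  simp only [Pre.II, h.pb_sq hv, Pre.a2, sq]
  simp only [sub_mul, mul_sub, Finset.sum_add_distrib, Finset.sum_sub_distrib, ← Finset.mul_sum,
    mul_comm _ (S.H _)]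
  ring

theorem graph_lap (f : R) : (S.graph u v).lap f = S.lap f
    - ∑ c, ∑ e, S.X u v c * S.X u v e * S.hess f c e - S.dv (S.X u v) * S.dir (S.X u v) f := by
  rw [← (h.graph_isDS hv).tr_hess, ← h.tr_A hv]
  simp only [h.graph_hess hv, Finset.sum_sub_distrib, h.tr_pb_hess hv, Finset.sum_mul]

/-- Codazzi equation -/
theorem codazzi (a b c : Option ι) :
    (S.graph u v).nab2 (S.A u v) a b c - (S.graph u v).nab2 (S.A u v) b a c =
      ∑ a', ∑ b', ∑ c', ∑ e, (S.graph u v).P a (some a') * (S.graph u v).P b (some b') *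
        (S.graph u v).P c (some c') * S.Rm a' b' e c' * S.X u v e := by
  rw [h.codazzi0 hv, sum_Rm]

/-- (Gau) -/
theorem gauss (F : R) : (S.graph u v).EF F =
    S.EF F + S.hF F u v ^ 2 - S.a2 u v - 2 * S.RicF F (S.X u v) := by
  simp only [Pre.EF, h.graph_scal hv, h.graph_lap hv, h.graph_gam hv, Pre.hF, Pre.dvF, Pre.RicF,
    sub_mul, Finset.sum_sub_distrib, mul_comm (S.hess F _ _)]
  ring

/-- (Jac) -/
theorem jacobi (F : R) : -(S.graph u v).lapF F v =
    (S.a2 u v + S.RicF F (S.X u v) + S.dir (S.X u v) (S.hF F u v)) * v := by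
  have h' := h.graph_isDS hv
  have e1 : -(S.graph u v).lap v = ∑ a, (S.graph u v).D a (S.A u v a none) := by
    have : ∀ a, (S.graph u v).D a v = -S.A u v a none := fun a => by
      simpa [Pre.nu] using h.D_nu hv a none
    simp only [Pre.lap, this, h'.D_neg, Finset.sum_neg_distrib, neg_neg]
  have e2 : ∑ e, ∑ f, (S.graph u v).II e f none * S.A u v e f = v * S.a2 u v := by
    simp only [h.graph_II hv, Pre.a2, Finset.mul_sum, Option.elim, Pre.nu]
    exact Finset.sum_congr rfl fun e _ => Finset.sum_congr rfl fun f _ => by ring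
  have e3 : ∑ a, (S.graph u v).nab2 (S.A u v) none a a = v * S.dir (S.X u v) (S.dv (S.X u v)) := by
    rw [h'.tr_nab2 (h.A_tan' hv) (h.A_tan hv), h.tr_A hv]
    simp [Pre.graph, Pre.nu]
  have e4 : ∑ a, (S.graph u v).nab2 (S.A u v) a a none
      - ∑ a, (S.graph u v).nab2 (S.A u v) none a a
      = v * ∑ a, ∑ b, S.Ric a b * (S.X u v a * S.X u v b) := by
    simp only [nab2_symm (h.A_symm hv) _ _ none, ← Finset.sum_sub_distrib, h.codazzi0 hv]
    rw [Finset.sum_comm, h.Ric_YY, Finset.mul_sum]
    refine Finset.sum_congr rfl fun k _ => ?_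
    have z1 : ∀ a, ∑ b', ∑ m, (S.graph u v).P a (some b') * S.II b' m k * S.X u v m
        = ∑ b', (S.graph u v).P a (some b') * ∑ c, S.X u v c * S.II c b' k := fun a =>
      Finset.sum_congr rfl fun b' _ => by
        rw [Finset.mul_sum]
        exact Finset.sum_congr rfl fun m _ => by rw [h.II_symm m b']; ring
    have z2 : ∀ a, ∑ m, ∑ n, (S.graph u v).P none (some m) * (S.graph u v).P a (some n) *
        S.II m n k = v * ∑ b', (S.graph u v).P a (some b') * ∑ c, S.X u v c * S.II c b' k := by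
      intro a
      rw [Finset.sum_comm]
      simp only [Finset.mul_sum, h.Q_none hv]
      exact Finset.sum_congr rfl fun n _ => Finset.sum_congr rfl fun m _ => by ring
    have z3 : ∑ c, ∑ e, S.X u v c * S.X u v e * S.hess (S.x k) c e
        = ∑ e, S.X u v e * ∑ c, S.X u v c * S.II c e k := by
      rw [Finset.sum_comm]
      simp only [Finset.mul_sum, Pre.II]
      exact Finset.sum_congr rfl fun e _ => Finset.sum_congr rfl fun c _ => by ring
    have z4 := h.tr_pb_hess hv (S.x k)
    have z5 := h.lift_lift hv (tan_sum (S.X u v) fun c => h.tan_hess (S.x k) c)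
      fun e => ∑ c, S.X u v c * S.II c e k
    rw [z3] at z4
    simp only [z1, z2]
    simp only [Finset.sum_sub_distrib, ← Finset.sum_mul, mul_left_comm _ v,
      h.Q_none hv, mul_assoc v, ← Finset.mul_sum _ _ v]
    simp only [Pre.II, Pre.H] at z4 z5 ⊢
    rw [z4, z5]
    ring
  have e5 : S.dir (S.X u v) (S.dir (S.X u v) F) =
      ∑ a, ∑ b, S.hess F a b * (S.X u v a * S.X u v b)
      + v * ∑ a, S.D a F * ∑ b, S.X u v b * S.hess u a b
      + S.dir (S.X u v) v * S.gam u F := by
    have y1 : ∀ a, S.D a (S.dir (S.X u v) F) = ∑ b, S.X u v b * S.hess F a b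
        + v * ∑ b, S.D b F * S.hess u a b + S.D a v * S.gam u F := by
      intro a
      rw [← h.tan_DD (h.tan_X u v), ← h.tan_DD (h.tan F), Pre.dir, h.D_sum, Pre.gam,
        Finset.mul_sum, Finset.mul_sum, ← Finset.sum_add_distrib, ← Finset.sum_add_distrib]
      refine Finset.sum_congr rfl fun b _ => ?_
      rw [h.mul, show S.D a (S.X u v b) = _ from h.mul a v (S.D b u)]
      ring
    have y2 : ∑ a, S.D a F * ∑ b, S.X u v b * S.hess u a b
        = ∑ a, S.X u v a * ∑ b, S.D b F * S.hess u a b := by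
      simp only [Finset.mul_sum]
      rw [Finset.sum_comm]
      exact Finset.sum_congr rfl fun a _ => Finset.sum_congr rfl fun b _ => by
        rw [h.hess u b a]; ring
    rw [y2, Pre.dir, show S.dir (S.X u v) v = ∑ a, S.X u v a * S.D a v from rfl,
      Finset.mul_sum, Finset.sum_mul,
      ← Finset.sum_add_distrib, ← Finset.sum_add_distrib]
    refine Finset.sum_congr rfl fun a _ => ?_
    rw [y1, mul_add, mul_add, Finset.mul_sum]
    congr 1
    · congr 1
      · exact Finset.sum_congr rfl fun b _ => by ring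
      · ring
    · ring
  have e6 : S.gam F v = -(v ^ 2 * ∑ a, S.D a F * ∑ b, S.X u v b * S.hess u a b) := by
    rw [Pre.gam, Finset.mul_sum, ← Finset.sum_neg_distrib]
    exact Finset.sum_congr rfl fun a _ => by rw [h.D_v hv]; ring
  have e7 : S.dir (S.X u v) F = v * S.gam u F := by
    simp only [Pre.dir, Pre.X, Pre.gam, Finset.mul_sum, mul_assoc]
  have e8 : S.dir (S.X u v) (S.hF F u v) =
      S.dir (S.X u v) (S.dv (S.X u v)) + S.dir (S.X u v) (S.dir (S.X u v) F) := by
    rw [Pre.hF, Pre.dvF, Pre.dir]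
    simp only [h.add, mul_add, Finset.sum_add_distrib]
    rfl
  rw [h'.div_nab2 (h.A_tan' hv), e2] at e1
  rw [Pre.lapF, h.graph_gam hv, e8, e5, e6]
  simp only [Pre.RicF, sub_mul, Finset.sum_sub_distrib]
  linear_combination e1 + e3 + e4 + S.dir (S.X u v) v * e7

end Crest.Agent.N222.Pre.IsDS

end
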