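import Crest.Agent.N222.G.Basic

/-!
# Row 222, delta-calculus of graphs, first part (helper36; statements of helper10's skeleton)
-/

set_option autoImplicit false
set_option linter.unusedSectionVars false

noncomputable section

namespace Crest.Agent.N222.Pre.IsDS

variable {R : Type} [CommRing R] [Algebra ℝ R] {ι : Type} [Fintype ι] [DecidableEq ι]
  {S : Pre R ι}

theorem two_cancel {x : R} (hx : 2 * x = 0) : x = 0 := by
  have : algebraMap ℝ R (1 / 2) * 2 = 1 := by
    rw [show (2 : R) = algebraMap ℝ R 2 from (map_ofNat _ 2).symm, ← map_mul]; norm_num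
  linear_combination (algebraMap ℝ R (1 / 2)) * hx - x * this

theorem tan_mul (c : R) {Y : ι → R} (hY : S.Tan Y) : S.Tan fun a => c * Y a := fun a => by
  beta_reduce
  rw [← hY a, Finset.mul_sum]
  exact Finset.sum_congr rfl fun b _ => by ring

theorem tan_sum {κ : Type} [Fintype κ] (c : κ → R) {Y : κ → ι → R} (hY : ∀ k, S.Tan (Y k)) :
    S.Tan fun a => ∑ k, c k * Y k a := fun a => by
  simp only [Finset.mul_sum]
  rw [Finset.sum_comm]
  exact Finset.sum_congr rfl fun k _ => tan_mul (c k) (hY k) a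

variable (h : S.IsDS)
include h

theorem tan_left {Y : ι → R} (hY : S.Tan Y) (a : ι) : ∑ b, Y b * S.P b a = Y a := by
  rw [← hY a]
  exact Finset.sum_congr rfl fun b _ => by rw [h.symm b a, mul_comm]

theorem tan_hess (f : R) (a : ι) : S.Tan fun b => S.hess f a b := fun b => h.P_hess f a b

theorem tan_hess' (f : R) (b : ι) : S.Tan fun a => S.hess f a b := fun a => h.P_hess' f a b

theorem tan_P (a : ι) : S.Tan fun b => S.P a b := fun b => by
  simp only [h.symm a, h.PP]

theorem tan_II {Y : ι → R} (hY : S.Tan Y) (a b : ι) : ∑ c, Y c * S.II a b c = 0 := by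
  rw [← h.II_tan hY a b]
  exact Finset.sum_congr rfl fun c _ => mul_comm _ _

/-- second derivatives against a tangential field -/
theorem tan_DD {Y : ι → R} (hY : S.Tan Y) (f : R) (k : ι) :
    ∑ e, Y e * S.D k (S.D e f) = ∑ e, Y e * S.hess f k e := by
  simp only [h.DD, mul_add, Finset.sum_add_distrib, Finset.mul_sum, ← mul_assoc]
  rw [Finset.sum_comm]
  simp only [← Finset.sum_mul, h.tan_II hY, zero_mul, Finset.sum_const_zero, add_zero]

/-- the derivative of the projection against a tangential field -/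
theorem tan_DP {Y : ι → R} (hY : S.Tan Y) (a c : ι) :
    ∑ e, S.D a (S.P c e) * Y e = ∑ e, S.II a e c * Y e := by
  simp only [h.DP, add_mul, Finset.sum_add_distrib, h.II_tan hY, zero_add]

/-- product rules -/
theorem dv_mul (f : R) (Y : ι → R) : S.dv (fun a => f * Y a) = f * S.dv Y + S.dir Y f := by
  simp only [Pre.dv, Pre.dir, h.mul, Finset.sum_add_distrib, Finset.mul_sum, mul_comm (Y _)]

theorem lap_mul (f g : R) : S.lap (f * g) = f * S.lap g + 2 * S.gam f g + S.lap f * g := by
  simp only [Pre.lap, Pre.gam, h.mul, h.add, Finset.mul_sum, Finset.sum_mul,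
    ← Finset.sum_add_distrib]
  exact Finset.sum_congr rfl fun a _ => by ring

/-- `scal` in terms of the first jet of the projection -/
theorem scal_DP : 2 * S.scal = 2 * ∑ c, (∑ a, S.D a (S.P a c)) * (∑ a, S.D a (S.P a c))
    - ∑ a, ∑ b, ∑ c, S.D a (S.P b c) * S.D a (S.P b c) := by
  have h1 : ∀ a, ∑ b, ∑ c, S.D a (S.P b c) * S.D a (S.P b c)
      = 2 * ∑ b, ∑ c, S.II a b c * S.II a b c := by
    intro a
    have e1 : ∑ b, ∑ c, S.II a c b * S.II a c b = ∑ b, ∑ c, S.II a b c * S.II a b c :=
      Finset.sum_comm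
    have e2 : ∀ b, ∑ c, S.II a b c * S.II a c b = 0 := fun b => h.II_tan (h.tan_hess _ a) a b
    have e3 : ∀ b c, S.D a (S.P b c) * S.D a (S.P b c) = S.II a b c * S.II a b c
        + 2 * (S.II a b c * S.II a c b) + S.II a c b * S.II a c b := fun b c => by
      rw [h.DP]; ring
    simp only [e3, Finset.sum_add_distrib, ← Finset.mul_sum, e1, e2, Finset.sum_const_zero]
    ring
  simp only [h1, ← h.H_eq, ← Finset.mul_sum]
  rw [h.scal_eq]
  ring

theorem nab2_hess (f : R) (a b c : ι) : S.nab2 (S.hess f) a b c =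
    ∑ m, (∑ k, S.II a c k * S.II b m k) * S.D m f + ∑ k, S.P c k * S.hess (S.D k f) a b := by
  have e1 : ∀ e, ∑ g, S.P c g * S.D a (S.hess f e g) =
      ∑ k, S.II a c k * S.D e (S.D k f) + ∑ k, S.P c k * S.D a (S.D e (S.D k f)) := by
    intro e
    simp only [Pre.hess, h.D_sum, h.mul, Finset.mul_sum, mul_add, ← mul_assoc]
    rw [Finset.sum_comm, ← Finset.sum_add_distrib]
    refine Finset.sum_congr rfl fun k _ => ?_
    rw [Finset.sum_add_distrib, ← Finset.sum_mul, ← Finset.sum_mul, h.PP, ← h.II_eq, add_comm]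
  have e2 : S.nab2 (S.hess f) a b c = ∑ e, S.P b e * ∑ g, S.P c g * S.D a (S.hess f e g) := by
    simp only [Pre.nab2, Finset.mul_sum, mul_assoc]
  rw [e2]
  simp only [e1, mul_add, Finset.sum_add_distrib]
  congr 1
  · have e3 : ∑ e, S.P b e * ∑ k, S.II a c k * S.D e (S.D k f)
        = ∑ k, S.II a c k * S.D b (S.D k f) := by
      simp only [Finset.mul_sum]
      rw [Finset.sum_comm]
      refine Finset.sum_congr rfl fun k _ => ?_
      rw [← h.PD b (S.D k f), Finset.mul_sum]
      exact Finset.sum_congr rfl fun e _ => by ring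
    rw [e3]
    simp only [h.DD, mul_add, Finset.sum_add_distrib, h.II_tan (h.tan_hess f b), zero_add,
      Finset.mul_sum, Finset.sum_mul, mul_assoc]
    exact Finset.sum_comm
  · simp only [Pre.hess, Finset.mul_sum]
    rw [Finset.sum_comm]
    exact Finset.sum_congr rfl fun k _ => Finset.sum_congr rfl fun e _ => by ring

/-- Ricci identity for gradients: `∇_a ∇_b ∇_c f - ∇_b ∇_a ∇_c f = Rm(a,b,e,c) ∇_e f` -/
theorem ricci_hess (f : R) (a b c : ι) :
    S.nab2 (S.hess f) a b c - S.nab2 (S.hess f) b a c = ∑ e, S.Rm a b e c * S.D e f := by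
  rw [h.nab2_hess, h.nab2_hess]
  simp only [h.hess _ b a, Pre.Rm, Finset.sum_sub_distrib, sub_mul, mul_comm (S.II b c _)]
  ring

/-! ### the part that does not use the normalisation of `v` -/

theorem tan_X (u v : R) : S.Tan (S.X u v) := tan_mul v (h.tan u)

theorem Q_eq (u v : R) (c : Option ι) (a : ι) :
    (S.graph u v).P c (some a) = S.Pb c (some a) + S.nu u v c * S.X u v a := by
  have e : S.dir (S.X u v) (S.x a) = S.X u v a := h.tan_left (h.tan_X u v) a
  cases c <;> simp [Pre.P, Pre.graph, Pre.Pb, e]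

theorem tan_Q (u v : R) (c : Option ι) : S.Tan fun a => (S.graph u v).P c (some a) := fun a => by
  simp only [h.Q_eq, mul_add, Finset.sum_add_distrib, tan_mul _ (h.tan_X u v) a]
  cases c <;> simp [Pre.Pb, h.tan_P _ a]

/-- the derivative along the graph -/
theorem gD (u v : R) (c : Option ι) (f : R) :
    (S.graph u v).D c f = ∑ a, (S.graph u v).P c (some a) * S.D a f := by
  simp only [h.Q_eq, add_mul, Finset.sum_add_distrib, mul_assoc, ← Finset.mul_sum]
  cases c <;> simp [Pre.graph, Pre.Pb, Pre.dir, h.PD]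

theorem gD_add (u v : R) (c : Option ι) (f g : R) :
    (S.graph u v).D c (f + g) = (S.graph u v).D c f + (S.graph u v).D c g := by
  simp only [h.gD u v c, h.add, mul_add, Finset.sum_add_distrib]

theorem gD_mul (u v : R) (c : Option ι) (f g : R) :
    (S.graph u v).D c (f * g) = f * (S.graph u v).D c g + (S.graph u v).D c f * g := by
  simp only [h.gD u v c, h.mul, Finset.mul_sum, Finset.sum_mul, ← Finset.sum_add_distrib]
  exact Finset.sum_congr rfl fun a _ => by ring

theorem gD_neg (u v : R) (c : Option ι) (f : R) :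
    (S.graph u v).D c (-f) = -(S.graph u v).D c f := by
  simp only [h.gD u v c, h.D_neg, mul_neg, Finset.sum_neg_distrib]

theorem gD_zero (u v : R) (c : Option ι) : (S.graph u v).D c 0 = 0 := by
  simp only [h.gD u v c, h.D_zero, mul_zero, Finset.sum_const_zero]

theorem Q_DD (u v : R) (a b : Option ι) (f : R) :
    ∑ e, (S.graph u v).P b (some e) * (S.graph u v).D a (S.D e f) =
      ∑ c, ∑ e, (S.graph u v).P a (some c) * (S.graph u v).P b (some e) * S.hess f c e := by
  simp only [h.gD u v a, Finset.mul_sum]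
  rw [Finset.sum_comm]
  refine Finset.sum_congr rfl fun c _ => ?_
  simp only [mul_left_comm _ ((S.graph u v).P a (some c)), mul_assoc, ← Finset.mul_sum]
  rw [h.tan_DD (h.tan_Q u v b)]

theorem Pb_symm (c e : Option ι) : S.Pb c e = S.Pb e c := by
  cases c <;> cases e <;> simp [Pre.Pb, h.symm]

theorem Pb_Pb (c f : Option ι) : ∑ e, S.Pb c e * S.Pb e f = S.Pb c f := by
  cases c <;> cases f <;> simp [Pre.Pb, Fintype.sum_option, h.PP]

variable {u v : R} (hv : v ^ 2 * (1 + S.gam u u) = 1)
include hv

theorem X_sq : ∑ a, S.X u v a * S.X u v a = 1 - v ^ 2 := by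
  have : ∑ a, S.X u v a * S.X u v a = v ^ 2 * S.gam u u := by
    simp only [Pre.X, Pre.gam, Finset.mul_sum]
    exact Finset.sum_congr rfl fun a _ => by ring
  linear_combination this + hv

theorem nu_unit : ∑ c, S.nu u v c * S.nu u v c = 1 := by
  simp only [Fintype.sum_option, Pre.nu, Option.elim, neg_mul_neg, h.X_sq hv]
  ring

theorem dir_X_u : S.dir (S.X u v) u = v * S.gam u u := by
  simp only [Pre.dir, Pre.X, Pre.gam, Finset.mul_sum, mul_assoc]

theorem graph_P (c e : Option ι) : (S.graph u v).P c e = S.Pb c e - S.nu u v c * S.nu u v e := by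
  cases e with
  | some a => rw [h.Q_eq]; simp [Pre.nu]
  | none =>
    cases c with
    | none =>
      simp only [Pre.P, Pre.graph, Pre.Pb, Pre.nu, Option.elim, h.dir_X_u hv]
      linear_combination hv
    | some a =>
      simp only [Pre.P, Pre.graph, Pre.Pb, Pre.nu, Option.elim, h.dir_X_u hv]
      simp only [Pre.X]
      linear_combination (-S.D a u) * hv

theorem Pb_nu (c : Option ι) : ∑ e, S.Pb c e * S.nu u v e = S.nu u v c := by
  cases c <;> simp [Pre.Pb, Pre.nu, Fintype.sum_option, h.tan_X u v _]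

theorem gP_symm (c e : Option ι) : (S.graph u v).P c e = (S.graph u v).P e c := by
  rw [h.graph_P hv, h.graph_P hv, h.Pb_symm, mul_comm]

theorem gP_nu (c : Option ι) : ∑ e, (S.graph u v).P c e * S.nu u v e = 0 := by
  simp only [h.graph_P hv, sub_mul, Finset.sum_sub_distrib, h.Pb_nu hv, mul_assoc,
    ← Finset.mul_sum, h.nu_unit hv]
  ring

theorem nu_gP (c : Option ι) : ∑ e, S.nu u v e * (S.graph u v).P e c = 0 := by
  rw [← h.gP_nu hv c]
  exact Finset.sum_congr rfl fun e _ => by rw [h.gP_symm hv e c, mul_comm]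

theorem gPP (c f : Option ι) :
    ∑ e, (S.graph u v).P c e * (S.graph u v).P e f = (S.graph u v).P c f := by
  have e1 : ∑ e, S.Pb c e * (S.graph u v).P e f = (S.graph u v).P c f := by
    simp only [h.graph_P hv, mul_sub, Finset.sum_sub_distrib, h.Pb_Pb, ← mul_assoc,
      ← Finset.sum_mul, h.Pb_nu hv]
  simp only [h.graph_P hv c, sub_mul, Finset.sum_sub_distrib, mul_assoc, ← Finset.mul_sum,
    h.nu_gP hv, e1, mul_zero, sub_zero]

theorem QQ (a b : ι) : ∑ c, (S.graph u v).P c (some a) * (S.graph u v).P c (some b)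
    = S.P a b - S.X u v a * S.X u v b := by
  have := h.gPP hv (some a) (some b)
  simp only [h.gP_symm hv (some a)] at this
  rw [this, h.graph_P hv, h.Pb_symm]
  simp [Pre.Pb, Pre.nu, mul_comm]

/-- lifts of vectors are tangent to the graph -/
theorem P_lift (y : ι → R) (b : Option ι) :
    ∑ e, (S.graph u v).P b e * ∑ a, (S.graph u v).P e (some a) * y a
      = ∑ a, (S.graph u v).P b (some a) * y a := by
  simp only [Finset.mul_sum, ← mul_assoc]
  rw [Finset.sum_comm]
  simp only [← Finset.sum_mul, h.gPP hv]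

theorem lift_Q {y : ι → R} (hy : S.Tan y) (b : ι) :
    ∑ c, (∑ a, (S.graph u v).P c (some a) * y a) * (S.graph u v).P c (some b)
      = y b - (∑ a, S.X u v a * y a) * S.X u v b := by
  simp only [Finset.sum_mul]
  rw [Finset.sum_comm, ← h.tan_left hy b, ← Finset.sum_sub_distrib]
  refine Finset.sum_congr rfl fun a _ => ?_
  have : ∀ c, (S.graph u v).P c (some a) * y a * (S.graph u v).P c (some b)
      = y a * ((S.graph u v).P c (some a) * (S.graph u v).P c (some b)) := fun c => by ring
  simp only [this, ← Finset.mul_sum, h.QQ hv]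
  ring

/-- inner product of two lifts -/
theorem lift_lift {y : ι → R} (hy : S.Tan y) (z : ι → R) :
    ∑ c, (∑ a, (S.graph u v).P c (some a) * y a) * (∑ a, (S.graph u v).P c (some a) * z a)
      = ∑ a, y a * z a - (∑ a, S.X u v a * y a) * ∑ a, S.X u v a * z a := by
  simp only [Finset.mul_sum _ _ (∑ a, _), ← mul_assoc]
  rw [Finset.sum_comm]
  simp only [← Finset.sum_mul, h.lift_Q hv hy, sub_mul, Finset.sum_sub_distrib]

/-- trace of a pulled back tensor -/
theorem tr_pb (T : ι → ι → R) :
    ∑ a, ∑ c, ∑ e, (S.graph u v).P a (some c) * (S.graph u v).P a (some e) * T c e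
      = ∑ c, ∑ e, S.P c e * T c e - ∑ c, ∑ e, S.X u v c * S.X u v e * T c e := by
  rw [Finset.sum_comm, ← Finset.sum_sub_distrib]
  refine Finset.sum_congr rfl fun c _ => ?_
  rw [Finset.sum_comm, ← Finset.sum_sub_distrib]
  refine Finset.sum_congr rfl fun e _ => ?_
  rw [← Finset.sum_mul, h.QQ hv, sub_mul]

theorem tr_pb_hess (f : R) :
    ∑ a, ∑ c, ∑ e, (S.graph u v).P a (some c) * (S.graph u v).P a (some e) * S.hess f c e
      = S.lap f - ∑ c, ∑ e, S.X u v c * S.X u v e * S.hess f c e := by
  simp only [h.tr_pb hv, h.P_hess, h.tr_hess]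

/-- Hessian on the graph of a function on `M` -/
theorem graph_hess (f : R) (a b : Option ι) : (S.graph u v).hess f a b =
    ∑ c, ∑ e, (S.graph u v).P a (some c) * (S.graph u v).P b (some e) * S.hess f c e
      - S.A u v a b * S.dir (S.X u v) f := by
  have e1 : ∀ c, (S.graph u v).D a ((S.graph u v).D c f) =
      (S.graph u v).D a (c.elim 0 fun e => S.D e f) + (S.nu u v c *
        (S.graph u v).D a (S.dir (S.X u v) f)
        + (S.graph u v).D a (S.nu u v c) * S.dir (S.X u v) f) := fun c => by
    rw [← h.gD_mul, ← h.gD_add]; rfl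
  simp only [Pre.hess, e1, mul_add, Finset.sum_add_distrib, ← mul_assoc, ← Finset.sum_mul,
    h.gP_nu hv]
  rw [Fintype.sum_option]
  simp only [Option.elim, h.gD_zero, h.Q_DD, Pre.A]
  simp only [Pre.hess]
  ring

/-- `A = v P' P' Hess u` -/
theorem A_eq (a b : Option ι) : S.A u v a b = v * ∑ c, ∑ e,
    (S.graph u v).P a (some c) * (S.graph u v).P b (some e) * S.hess u c e := by
  have e1 : (S.graph u v).P b none = ∑ e, (S.graph u v).P b (some e) * S.D e u := h.gD u v b u
  have e2 : ∀ e, (S.graph u v).P b (some e) * (S.graph u v).D a (S.nu u v (some e)) =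
      -(v * ((S.graph u v).P b (some e) * (S.graph u v).D a (S.D e u)))
      - (S.graph u v).D a v * ((S.graph u v).P b (some e) * S.D e u) := fun e => by
    simp only [Pre.nu, Option.elim, Pre.X, h.gD_neg, h.gD_mul]
    ring
  rw [Pre.A, Fintype.sum_option, ← h.Q_DD]
  simp only [e2, Finset.sum_sub_distrib, Finset.sum_neg_distrib, ← Finset.mul_sum, ← e1]
  simp only [Pre.nu, Option.elim]
  ring

theorem A_symm (a b : Option ι) : S.A u v a b = S.A u v b a := by
  rw [h.A_eq hv, h.A_eq hv, Finset.sum_comm]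
  congr 1
  exact Finset.sum_congr rfl fun c _ => Finset.sum_congr rfl fun e _ => by
    rw [h.hess u e c]; ring

theorem graph_isDS : (S.graph u v).IsDS where
  add := h.gD_add u v
  mul := h.gD_mul u v
  const a r := by simp only [h.gD u v a, h.const, mul_zero, Finset.sum_const_zero]
  symm := h.gP_symm hv
  tan f a := by
    simp only [h.gD u v _ f]
    exact h.P_lift hv _ a
  hess f a b := by
    rw [h.graph_hess hv, h.graph_hess hv, h.A_symm hv a b, Finset.sum_comm]
    congr 1
    exact Finset.sum_congr rfl fun c _ => Finset.sum_congr rfl fun e _ => by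
      rw [h.hess f e c]; ring

theorem graph_gam (f g : R) :
    (S.graph u v).gam f g = S.gam f g - S.dir (S.X u v) f * S.dir (S.X u v) g := by
  simp only [Pre.gam, h.gD u v _ f, h.gD u v _ g]
  exact h.lift_lift hv (h.tan f) _

theorem A_tan (b : Option ι) : (S.graph u v).Tan fun a => S.A u v a b := fun a => by
  simp only [h.A_symm hv _ b]
  simp only [Pre.A, mul_neg, Finset.sum_neg_distrib, Finset.mul_sum, ← mul_assoc]
  rw [Finset.sum_comm]
  simp only [← Finset.sum_mul, h.gPP hv]

/-- the derivative of `v` -/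
theorem D_v (a : ι) : S.D a v = -(v ^ 2 * ∑ b, S.X u v b * S.hess u a b) := by
  have e1 : S.D a (S.gam u u) = 2 * ∑ b, S.D b u * S.hess u a b := by
    rw [← h.tan_DD (h.tan u), Pre.gam, h.D_sum, Finset.mul_sum]
    exact Finset.sum_congr rfl fun b _ => by rw [h.mul]; ring
  have e2 : ∑ b, S.X u v b * S.hess u a b = v * ∑ b, S.D b u * S.hess u a b := by
    simp only [Pre.X, Finset.mul_sum, mul_assoc]
  have e3 := congrArg (S.D a) hv
  rw [h.mul, h.add, h.D_one, h.D_sq, e1] at e3
  rw [e2, ← sub_eq_zero]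
  apply two_cancel
  linear_combination v * e3 - 2 * S.D a v * hv

/-- nondivergence form of the mean curvature operator -/
theorem dv_X : S.dv (S.X u v) =
    v * (S.lap u - ∑ a, ∑ b, S.X u v a * S.X u v b * S.hess u a b) := by
  have e1 : S.dv (S.X u v) = v * S.lap u + S.dir (fun a => S.D a u) v := h.dv_mul v _
  rw [e1, mul_sub, sub_eq_add_neg, Pre.dir, Finset.mul_sum, ← Finset.sum_neg_distrib]
  congr 1
  refine Finset.sum_congr rfl fun a _ => ?_
  simp only [h.D_v hv, mul_assoc (S.X u v a), ← Finset.mul_sum]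
  rw [show S.X u v a = v * S.D a u from rfl]
  ring

theorem tr_A : ∑ a, S.A u v a a = S.dv (S.X u v) := by
  simp only [h.A_eq hv, ← Finset.mul_sum, h.tr_pb_hess hv, h.dv_X hv]

theorem nu_D_nu (a : Option ι) : ∑ e, S.nu u v e * (S.graph u v).D a (S.nu u v e) = 0 := by
  have h' := h.graph_isDS hv
  have e1 := congrArg ((S.graph u v).D a) (h.nu_unit hv)
  rw [h'.D_one, h'.D_sum] at e1
  apply two_cancel
  rw [← e1, Finset.mul_sum]
  exact Finset.sum_congr rfl fun e _ => by rw [h'.mul]; ring

/-- derivative of the normal -/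
theorem D_nu (a c : Option ι) : (S.graph u v).D a (S.nu u v c) = -S.A u v a c +
    c.elim 0 fun c => ∑ b, ∑ e, (S.graph u v).P a (some b) * S.II b e c * S.nu u v (some e) := by
  have h' := h.graph_isDS hv
  have e1 := congrArg ((S.graph u v).D a) (h.Pb_nu hv c)
  rw [h'.D_sum] at e1
  simp only [h'.mul, Finset.sum_add_distrib] at e1
  have e2 : ∑ e, S.Pb c e * (S.graph u v).D a (S.nu u v e) = -S.A u v a c := by
    simp only [Pre.A, neg_neg, h.graph_P hv c, sub_mul, Finset.sum_sub_distrib, mul_assoc,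
      ← Finset.mul_sum, h.nu_D_nu hv, mul_zero, sub_zero]
  rw [← e1, e2]
  congr 1
  cases c with
  | none => simp [Pre.Pb, Fintype.sum_option, h'.D_one, h'.D_zero]
  | some c =>
    have ht : S.Tan fun e => S.nu u v (some e) := by
      simpa [Pre.nu] using tan_mul (-1) (h.tan_X u v)
    simp only [Pre.Pb, Fintype.sum_option, Option.elim, h'.D_zero, zero_mul, zero_add]
    simp only [h.gD u v a, Finset.sum_mul]
    rw [Finset.sum_comm]
    refine Finset.sum_congr rfl fun b _ => ?_
    simp only [mul_assoc, ← Finset.mul_sum, h.tan_DP ht]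

/-- second fundamental form of the graph -/
theorem graph_II (a b c : Option ι) : (S.graph u v).II a b c = S.A u v a b * S.nu u v c +
    c.elim 0 fun c => ∑ e, ∑ f, (S.graph u v).P a (some e) * (S.graph u v).P b (some f) *
      S.II e f c := by
  rw [Pre.II, h.graph_hess hv]
  cases c with
  | none =>
    change ∑ c, ∑ e, _ * S.hess u c e - _ * S.dir (S.X u v) u = _ * v + 0
    rw [h.dir_X_u hv, h.A_eq hv]
    generalize ∑ c, ∑ e, (S.graph u v).P a (some c) * (S.graph u v).P b (some e) *
      S.hess u c e = B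
    linear_combination (-B) * hv
  | some c =>
    have e : S.dir (S.X u v) (S.x c) = S.X u v c := h.tan_left (h.tan_X u v) c
    change _ - _ * S.dir (S.X u v) (S.x c) = _
    rw [e]
    simp only [Pre.nu, Option.elim, Pre.II]
    change ∑ c', ∑ e, _ * S.hess (S.x c) c' e - _ = _
    ring

end Crest.Agent.N222.Pre.IsDS

end
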