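import Crest.Agent.N222.G.Graph

/-!
# Row 222, delta-calculus: the Simons identity for a symmetric tangential tensor (helper17)
-/

set_option autoImplicit false
set_option linter.unusedSectionVars false

noncomputable section

namespace Crest.Agent.N222.Pre

variable {R : Type} [CommRing R] {ι : Type} [Fintype ι]

/-- `II · A`: tangent in `b f`, normal in `e` -/
def sB (S : Pre R ι) (A : ι → ι → R) (b e f : ι) : R := ∑ g, S.II b g e * A g f

/-- the Simons field of a tensor -/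
def sY (S : Pre R ι) (A : ι → ι → R) (a : ι) : R :=
  ∑ b, ∑ c, (A b c * S.nab2 A b a c - A a c * S.nab2 A b b c)

theorem simY_eq (S : Pre R ι) (u v : R) : S.simY u v = (S.graph u v).sY (S.A u v) := rfl

theorem Hom.sB {R' : Type} [CommRing R'] {S : Pre R ι} {S' : Pre R' ι} {φ : R →+* R'}
    (h : S.Hom S' φ) (A : ι → ι → R) (b e f : ι) :
    φ (S.sB A b e f) = S'.sB (fun a b => φ (A a b)) b e f := by
  simp only [Pre.sB, map_sum, map_mul, h.II]

/-- symmetric tangential tensors -/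
structure SymT (S : Pre R ι) (A : ι → ι → R) : Prop where
  tan : ∀ b, S.Tan fun a => A a b
  symm : ∀ a b, A a b = A b a

namespace Sim

variable {f : ι → ι → ι → R} {S : Pre R ι}

theorem z3 (h : ∀ a b, ∑ c, f a b c = 0) : ∑ a, ∑ b, ∑ c, f a b c = 0 := by simp [h]
theorem z2 (h : ∀ a c, ∑ b, f a b c = 0) : ∑ a, ∑ b, ∑ c, f a b c = 0 :=
  Finset.sum_eq_zero fun a _ => by rw [Finset.sum_comm]; simp [h]
theorem z1 (h : ∀ b c, ∑ a, f a b c = 0) : ∑ a, ∑ b, ∑ c, f a b c = 0 := by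
  rw [Finset.sum_comm]; exact z2 fun b c => h b c

theorem tan_add {Y Z : ι → R} (hY : S.Tan Y) (hZ : S.Tan Z) : S.Tan fun a => Y a + Z a :=
  fun a => by simp only [mul_add, Finset.sum_add_distrib, hY a, hZ a]
theorem tan_sub {Y Z : ι → R} (hY : S.Tan Y) (hZ : S.Tan Z) : S.Tan fun a => Y a - Z a :=
  fun a => by simp only [mul_sub, Finset.sum_sub_distrib, hY a, hZ a]
theorem tan_sum {κ : Type} [Fintype κ] {Y : κ → ι → R} (hY : ∀ k, S.Tan (Y k)) :
    S.Tan fun a => ∑ k, Y k a := fun a => by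
  simp only [Finset.mul_sum]
  rw [Finset.sum_comm]
  exact Finset.sum_congr rfl fun k _ => hY k a
theorem tan_mul (c : R) {Y : ι → R} (hY : S.Tan Y) : S.Tan fun a => c * Y a := fun a => by
  beta_reduce
  rw [← hY a, Finset.mul_sum]
  exact Finset.sum_congr rfl fun b _ => by ring
theorem tan_mul' (c : R) {Y : ι → R} (hY : S.Tan Y) : S.Tan fun a => Y a * c := by
  simpa only [mul_comm] using tan_mul c hY

end Sim

open Sim

namespace IsDS

variable [Algebra ℝ R] [DecidableEq ι] {S : Pre R ι} (h : S.IsDS)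
include h

theorem tan_proj (Z : ι → R) : S.Tan fun a => ∑ e, S.P a e * Z e :=
  Sim.tan_sum fun e => tan_mul' _ fun a => h.PP a e

/-- derivative of a tangential field -/
theorem D_tan {Y : ι → R} (hY : S.Tan Y) (a c : ι) :
    S.D a (Y c) = ∑ g, S.II a g c * Y g + ∑ g, S.P c g * S.D a (Y g) := by
  conv_lhs => rw [← hY c, h.D_sum]
  simp only [h.mul, Finset.sum_add_distrib, h.tan_DP hY]
  ring

theorem dv_proj (Z : ι → R) :
    S.dv (fun a => ∑ e, S.P a e * Z e) = ∑ e, S.H e * Z e + ∑ e, S.D e (Z e) := by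
  simp only [Pre.dv, h.D_sum, h.mul]
  rw [Finset.sum_comm, ← Finset.sum_add_distrib]
  refine Finset.sum_congr rfl fun e _ => ?_
  rw [Finset.sum_add_distrib, ← Finset.sum_mul, ← h.H_eq, ← h.PD e (Z e), add_comm]
  simp only [h.symm e]

theorem nab2_eq (A : ι → ι → R) (a b c : ι) :
    S.nab2 A a b c = ∑ e, S.P b e * ∑ g, S.P c g * S.D a (A e g) := by
  simp only [Pre.nab2, Finset.mul_sum, mul_assoc]

theorem T_tan1 (A : ι → ι → R) (b c : ι) : S.Tan fun a => S.nab2 A a b c :=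
  Sim.tan_sum fun _ => Sim.tan_sum fun _ => Sim.tan_mul _ (h.tan _)

theorem T_tan2 (A : ι → ι → R) (a c : ι) : S.Tan fun b => S.nab2 A a b c := by
  simp only [h.nab2_eq]
  exact h.tan_proj _

theorem B_nor (A : ι → ι → R) (b f : ι) {Y : ι → R} (hY : S.Tan Y) :
    ∑ e, S.sB A b e f * Y e = 0 := by
  simp only [Pre.sB, Finset.sum_mul]
  rw [Finset.sum_comm]
  refine Finset.sum_eq_zero fun g _ => ?_
  rw [← mul_zero (A g f), ← h.II_tan hY b g, Finset.mul_sum]
  exact Finset.sum_congr rfl fun e _ => by ring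

theorem B_nor' (A : ι → ι → R) (b f : ι) {Y : ι → R} (hY : S.Tan Y) :
    ∑ e, Y e * S.sB A b e f = 0 := by
  simpa only [mul_comm] using h.B_nor A b f hY

theorem B_tan1 (A : ι → ι → R) (e f : ι) : S.Tan fun b => S.sB A b e f :=
  Sim.tan_sum fun g => tan_mul' _ (h.tan_hess' _ g)

theorem tr_B (A : ι → ι → R) (c : ι) : ∑ a, S.sB A a a c = 0 := by
  have : ∀ a, S.sB A a a c = ∑ b, S.P a b * S.sB A b a c := fun a => (h.B_tan1 A a c a).symm
  rw [Finset.sum_congr rfl fun a _ => this a, Finset.sum_comm]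
  exact Finset.sum_eq_zero fun b _ => h.B_nor' A b c fun a => h.PP a b

variable {A : ι → ι → R} (hA : S.SymT A)
include hA

theorem A_tan2 (a : ι) : S.Tan fun b => A a b := by simpa only [hA.symm a] using hA.tan a

theorem B_tan3 (b e : ι) : S.Tan fun f => S.sB A b e f :=
  Sim.tan_sum fun g => Sim.tan_mul _ (h.A_tan2 hA g)

theorem T_symm (a b c : ι) : S.nab2 A a b c = S.nab2 A a c b := by
  unfold Pre.nab2
  rw [Finset.sum_comm]
  exact Finset.sum_congr rfl fun e _ => Finset.sum_congr rfl fun g _ => by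
    rw [hA.symm g e]; ring

theorem T_tan3 (a b : ι) : S.Tan fun c => S.nab2 A a b c := by
  simp only [h.T_symm hA a b]
  exact h.T_tan2 A a b

theorem D_symT (b e f : ι) :
    S.D b (A e f) = S.nab2 A b e f + S.sB A b e f + S.sB A b f e := by
  have h1 : ∀ g, S.D b (A g f) = S.sB A b f g + ∑ k, S.P f k * S.D b (A g k) := fun g => by
    rw [h.D_tan (h.A_tan2 hA g) b f]
    simp only [Pre.sB, hA.symm g]
  have h2 : ∑ g, S.P e g * S.sB A b f g = S.sB A b f e := h.B_tan3 hA b f e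
  rw [h.D_tan (hA.tan f) b e, h.nab2_eq]
  simp only [h1, mul_add, Finset.sum_add_distrib, h2]
  change S.sB A b e f + _ = _
  ring

theorem tr_T (c : ι) : ∑ a, S.nab2 A c a a = S.D c (∑ a, A a a) := by
  have : ∑ a, S.sB A c a a = 0 := by
    unfold Pre.sB
    rw [Finset.sum_comm]
    exact Finset.sum_eq_zero fun g _ => h.II_tan (h.A_tan2 hA g) c g
  simp only [h.D_sum, h.D_symT hA, Finset.sum_add_distrib, this, add_zero]

theorem dv_A (c : ι) : ∑ a, S.D a (A a c) = ∑ a, S.nab2 A a a c + ∑ a, S.sB A a c a := by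
  simp only [h.D_symT hA, Finset.sum_add_distrib, h.tr_B, add_zero]

theorem D_normSq (a : ι) :
    S.D a (∑ b, ∑ c, A b c * A b c) = 2 * ∑ b, ∑ c, A b c * S.nab2 A a b c := by
  have e1 : ∑ b, ∑ c, A b c * S.sB A a b c = 0 := by
    rw [Finset.sum_comm]
    exact Finset.sum_eq_zero fun c _ => h.B_nor' A a c (hA.tan c)
  have e2 : ∑ b, ∑ c, A b c * S.sB A a c b = 0 :=
    Finset.sum_eq_zero fun b _ => h.B_nor' A a b (h.A_tan2 hA b)
  have e3 : ∀ b c, S.D a (A b c * A b c) = 2 * (A b c * S.nab2 A a b c)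
      + 2 * (A b c * S.sB A a b c) + 2 * (A b c * S.sB A a c b) := fun b c => by
    rw [h.mul, h.D_symT hA]; ring
  simp only [h.D_sum, e3, Finset.sum_add_distrib, ← Finset.mul_sum, e1, e2]
  ring

theorem tan_sY : S.Tan (S.sY A) :=
  Sim.tan_sum fun b => Sim.tan_sum fun c =>
    tan_sub (Sim.tan_mul _ (h.T_tan2 A b c)) (tan_mul' _ (hA.tan c))

theorem sY_eq (a : ι) : S.sY A a = ∑ e, S.P a e * (∑ b, ∑ c, A b c * S.D b (A e c))
    - ∑ c, A a c * ∑ b, S.D b (A b c) := by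
  have e1 : ∀ b c, ∑ e, S.P a e * S.D b (A e c) = S.nab2 A b a c + S.sB A b c a := fun b c => by
    simp only [h.D_symT hA, mul_add, Finset.sum_add_distrib]
    rw [h.T_tan2 A b c a, h.B_tan3 hA b c a, h.B_nor' A b c (h.tan_P a), add_zero]
  have e2 : ∑ e, S.P a e * (∑ b, ∑ c, A b c * S.D b (A e c)) =
      ∑ b, ∑ c, A b c * ∑ e, S.P a e * S.D b (A e c) := by
    simp only [Finset.mul_sum]
    rw [Finset.sum_comm]
    refine Finset.sum_congr rfl fun b _ => ?_
    rw [Finset.sum_comm]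
    exact Finset.sum_congr rfl fun c _ => Finset.sum_congr rfl fun e _ => by ring
  have e3 : ∀ b, ∑ c, A b c * S.sB A b c a = 0 := fun b => h.B_nor' A b a (h.A_tan2 hA b)
  have e4 : ∑ c, A a c * ∑ b, S.sB A b c b = 0 := by
    simp only [Finset.mul_sum]
    rw [Finset.sum_comm]
    exact Finset.sum_eq_zero fun b _ => h.B_nor' A b b (h.A_tan2 hA a)
  have e5 : ∑ c, A a c * ∑ b, S.nab2 A b b c = ∑ b, ∑ c, A a c * S.nab2 A b b c := by
    simp only [Finset.mul_sum]
    exact Finset.sum_comm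
  rw [e2]
  simp only [e1, h.dv_A hA, mul_add, Finset.sum_add_distrib, e3, e4, e5, Pre.sY,
    Finset.sum_sub_distrib, add_zero]

theorem DA_DA : ∑ e, ∑ b, ∑ c, S.D e (A b c) * S.D b (A e c) =
    ∑ e, ∑ b, ∑ c, S.nab2 A e b c * S.nab2 A b e c
      + ∑ e, ∑ b, ∑ c, S.sB A e c b * S.sB A b c e := by
  have e1 : ∑ e, ∑ b, ∑ c, S.sB A e b c * S.D b (A e c) = 0 :=
    z2 fun e c => h.B_nor A e c (h.tan _)
  have e2 : ∑ e, ∑ b, ∑ c, (S.nab2 A e b c + S.sB A e c b) * S.sB A b e c = 0 :=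
    z1 fun b c => h.B_nor' A b c (tan_add (h.T_tan1 A b c) (h.B_tan1 A c b))
  have e3 : ∑ e, ∑ b, ∑ c, S.nab2 A e b c * S.sB A b c e = 0 :=
    z3 fun e b => h.B_nor' A b e (h.T_tan3 hA e b)
  have e4 : ∑ e, ∑ b, ∑ c, S.sB A e c b * S.nab2 A b e c = 0 :=
    z3 fun e b => h.B_nor A e b (h.T_tan3 hA b e)
  have e5 : ∀ e b c, S.D e (A b c) * S.D b (A e c) = S.nab2 A e b c * S.nab2 A b e c
      + S.sB A e c b * S.sB A b c e + S.sB A e b c * S.D b (A e c)
      + (S.nab2 A e b c + S.sB A e c b) * S.sB A b e c + S.nab2 A e b c * S.sB A b c e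
      + S.sB A e c b * S.nab2 A b e c := fun e b c => by
    rw [h.D_symT hA e b c, h.D_symT hA b e c]; ring
  simp only [e5, Finset.sum_add_distrib, e1, e2, e3, e4, add_zero]

theorem W_W : ∑ c, (∑ a, S.D a (A a c)) * ∑ a, S.D a (A a c) =
    ∑ c, (∑ a, S.nab2 A a a c) * (∑ a, S.nab2 A a a c)
      + ∑ c, (∑ a, S.sB A a c a) * ∑ a, S.sB A a c a := by
  have e1 : ∑ c, (∑ a, S.nab2 A a a c) * ∑ a, S.sB A a c a = 0 := by
    simp only [Finset.mul_sum]
    rw [Finset.sum_comm]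
    exact Finset.sum_eq_zero fun a _ =>
      h.B_nor' A a a (Sim.tan_sum fun b => h.T_tan3 hA b b)
  have e2 : ∀ x y : R, (x + y) * (x + y) = x * x + y * y + 2 * (x * y) := fun x y => by ring
  simp only [h.dv_A hA, e2, Finset.sum_add_distrib, ← Finset.mul_sum (a := (2 : R)), e1,
    mul_zero, add_zero]

theorem comm_A : ∑ e, ∑ b, ∑ c, A b c * S.D e (S.D b (A e c)) =
    ∑ e, ∑ b, ∑ c, A b c * S.D b (S.D e (A e c))
      - ∑ g, ∑ e, ∑ c, S.sB A g e c * S.sB A g e c := by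
  have e1 : ∀ e c, ∑ b, A b c * S.D e (S.D b (A e c)) =
      ∑ b, A b c * S.D b (S.D e (A e c)) - ∑ g, S.sB A g e c * S.D g (A e c) := fun e c => by
    rw [h.tan_DD (hA.tan c)]
    simp only [h.DD, mul_add, Finset.sum_add_distrib, h.hess _ e]
    have : ∑ b, A b c * ∑ g, S.II b g e * S.D g (A e c) = ∑ g, S.sB A g e c * S.D g (A e c) := by
      simp only [Pre.sB, Finset.mul_sum, Finset.sum_mul]
      rw [Finset.sum_comm]
      exact Finset.sum_congr rfl fun g _ => Finset.sum_congr rfl fun b _ => by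
        rw [h.II_symm g b]; ring
    rw [this]; ring
  have e2 : ∀ g c, ∑ e, S.sB A g e c * S.D g (A e c) = ∑ e, S.sB A g e c * S.sB A g e c :=
    fun g c => by
      simp only [h.D_symT hA, mul_add, Finset.sum_add_distrib]
      rw [h.B_nor A g c (h.T_tan2 A g c), h.B_nor A g c (h.B_tan3 hA g c), zero_add, add_zero]
  have e3 : ∑ e, ∑ c, ∑ g, S.sB A g e c * S.D g (A e c) =
      ∑ g, ∑ e, ∑ c, S.sB A g e c * S.sB A g e c := by
    rw [Finset.sum_congr rfl fun e _ => Finset.sum_comm, Finset.sum_comm]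
    refine Finset.sum_congr rfl fun g _ => ?_
    rw [Finset.sum_comm, Finset.sum_congr rfl fun c _ => e2 g c, Finset.sum_comm]
  rw [← e3, ← Finset.sum_sub_distrib]
  refine Finset.sum_congr rfl fun e _ => ?_
  rw [Finset.sum_comm, Finset.sum_congr rfl fun c _ => e1 e c, Finset.sum_sub_distrib,
    Finset.sum_comm]

/-- **the Simons identity** -/
theorem dv_sY : S.dv (S.sY A) = ∑ e, ∑ b, ∑ c, S.nab2 A e b c * S.nab2 A b e c
    - ∑ c, (∑ a, S.nab2 A a a c) * (∑ a, S.nab2 A a a c)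
    + ∑ e, S.H e * (∑ b, ∑ c, A b c * S.sB A b e c)
    + ∑ e, ∑ b, ∑ c, S.sB A e c b * S.sB A b c e
    - ∑ c, (∑ a, S.sB A a c a) * (∑ a, S.sB A a c a)
    - ∑ g, ∑ e, ∑ c, S.sB A g e c * S.sB A g e c := by
  have e0 : S.dv (S.sY A) = S.dv (fun a => ∑ e, S.P a e * (∑ b, ∑ c, A b c * S.D b (A e c)))
      - ∑ a, S.D a (∑ c, A a c * ∑ b, S.D b (A b c)) := by
    simp only [Pre.dv, h.sY_eq hA, h.D_sub, Finset.sum_sub_distrib]
  have e1 : ∑ e, S.H e * (∑ b, ∑ c, A b c * S.D b (A e c)) =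
      ∑ e, S.H e * (∑ b, ∑ c, A b c * S.sB A b e c) := by
    have : ∑ e, S.H e * (∑ b, ∑ c, A b c * (S.nab2 A b e c + S.sB A b c e)) = 0 :=
      h.H_tan (Sim.tan_sum fun b => Sim.tan_sum fun c =>
        Sim.tan_mul _ (tan_add (h.T_tan2 A b c) (h.B_tan3 hA b c)))
    rw [← add_zero (∑ e, S.H e * (∑ b, ∑ c, A b c * S.sB A b e c)), ← this,
      ← Finset.sum_add_distrib]
    refine Finset.sum_congr rfl fun e _ => ?_
    rw [← mul_add, ← Finset.sum_add_distrib]
    congr 1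
    refine Finset.sum_congr rfl fun b _ => ?_
    rw [← Finset.sum_add_distrib]
    exact Finset.sum_congr rfl fun c _ => by rw [h.D_symT hA]; ring
  have e2 : ∑ e, S.D e (∑ b, ∑ c, A b c * S.D b (A e c)) =
      ∑ e, ∑ b, ∑ c, A b c * S.D e (S.D b (A e c))
        + ∑ e, ∑ b, ∑ c, S.D e (A b c) * S.D b (A e c) := by
    simp only [h.D_sum, h.mul, Finset.sum_add_distrib]
  have e3 : ∑ a, S.D a (∑ c, A a c * ∑ b, S.D b (A b c)) =
      ∑ e, ∑ b, ∑ c, A b c * S.D b (S.D e (A e c))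
        + ∑ c, (∑ a, S.D a (A a c)) * ∑ a, S.D a (A a c) := by
    simp only [h.D_sum, h.mul, Finset.sum_add_distrib]
    congr 1
    · simp only [Finset.mul_sum]
      rw [Finset.sum_congr rfl fun e _ => Finset.sum_comm, Finset.sum_comm]
    · simp only [Finset.sum_mul]
      exact Finset.sum_comm
  rw [e0, h.dv_proj, e1, e2, e3, h.DA_DA hA, h.W_W hA, h.comm_A hA]
  ring

end IsDS

end Crest.Agent.N222.Pre

end
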