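import Crest.Agent.N222.G.Defs

/-!
# Row 222, delta-calculus: basic identities and transport along ring maps
-/

set_option autoImplicit false
set_option linter.unusedSectionVars false

noncomputable section

namespace Crest.Agent.N222.Pre

variable {R : Type} [CommRing R] {ι : Type} [Fintype ι] {S : Pre R ι}

/-! ### transport -/

section Hom

variable {R' : Type} [CommRing R'] {S' : Pre R' ι} {φ : R →+* R'} (h : S.Hom S' φ)
include h

theorem Hom.P (a b : ι) : φ (S.P a b) = S'.P a b := by simp only [Pre.P, h.D, h.x]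

theorem Hom.gam (f g : R) : φ (S.gam f g) = S'.gam (φ f) (φ g) := by
  simp only [Pre.gam, map_sum, map_mul, h.D]

theorem Hom.dir (Y : ι → R) (f : R) : φ (S.dir Y f) = S'.dir (fun a => φ (Y a)) (φ f) := by
  simp only [Pre.dir, map_sum, map_mul, h.D]

theorem Hom.dv (Y : ι → R) : φ (S.dv Y) = S'.dv fun a => φ (Y a) := by
  simp only [Pre.dv, map_sum, h.D]

theorem Hom.lap (f : R) : φ (S.lap f) = S'.lap (φ f) := by
  simp only [Pre.lap, map_sum, h.D]

theorem Hom.hess (f : R) (a b : ι) : φ (S.hess f a b) = S'.hess (φ f) a b := by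
  simp only [Pre.hess, map_sum, map_mul, h.D, h.P]

theorem Hom.II (a b c : ι) : φ (S.II a b c) = S'.II a b c := by
  simp only [Pre.II, h.hess, h.x]

theorem Hom.H (c : ι) : φ (S.H c) = S'.H c := by simp only [Pre.H, h.lap, h.x]

theorem Hom.Rm (a b c e : ι) : φ (S.Rm a b c e) = S'.Rm a b c e := by
  simp only [Pre.Rm, map_sum, map_sub, map_mul, h.II]

theorem Hom.Ric (b c : ι) : φ (S.Ric b c) = S'.Ric b c := by simp only [Pre.Ric, map_sum, h.Rm]

theorem Hom.scal : φ S.scal = S'.scal := by simp only [Pre.scal, map_sum, h.Ric]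

theorem Hom.lapF (F f : R) : φ (S.lapF F f) = S'.lapF (φ F) (φ f) := by
  simp only [Pre.lapF, map_add, h.lap, h.gam]

theorem Hom.dvF (F : R) (Y : ι → R) : φ (S.dvF F Y) = S'.dvF (φ F) fun a => φ (Y a) := by
  simp only [Pre.dvF, map_add, h.dv, h.dir]

theorem Hom.RicF (F : R) (Y : ι → R) : φ (S.RicF F Y) = S'.RicF (φ F) fun a => φ (Y a) := by
  simp only [Pre.RicF, map_sum, map_mul, map_sub, h.Ric, h.hess]

theorem Hom.EF (F : R) : φ (S.EF F) = S'.EF (φ F) := by
  simp only [Pre.EF, map_sub, map_mul, h.scal, h.lap, h.gam, map_ofNat]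

theorem Hom.Eb (b : ι → R) : φ (S.Eb b) = S'.Eb fun a => φ (b a) := by
  simp only [Pre.Eb, map_sub, map_mul, map_sum, h.scal, h.dv, map_ofNat]

theorem Hom.nab2 (T : ι → ι → R) (a b c : ι) :
    φ (S.nab2 T a b c) = S'.nab2 (fun e f => φ (T e f)) a b c := by
  simp only [Pre.nab2, map_sum, map_mul, h.D, h.P]

theorem Hom.X (u v : R) (a : ι) : φ (S.X u v a) = S'.X (φ u) (φ v) a := by
  simp only [Pre.X, map_mul, h.D]

theorem Hom.nu (u v : R) (c : Option ι) : φ (S.nu u v c) = S'.nu (φ u) (φ v) c := by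
  cases c <;> simp [Pre.nu, h.X]

theorem Hom.Pb [DecidableEq ι] (c e : Option ι) : φ (S.Pb c e) = S'.Pb c e := by
  cases c <;> cases e <;> simp [Pre.Pb, h.P]

theorem Hom.graph (u v : R) : (S.graph u v).Hom (S'.graph (φ u) (φ v)) φ where
  x c := by cases c <;> simp [Pre.graph, h.x]
  D c f := by
    have e : (fun a => φ (S.X u v a)) = S'.X (φ u) (φ v) := funext (h.X u v)
    cases c <;> simp [Pre.graph, h.D, h.nu, h.dir, e]

theorem Hom.A (u v : R) (a b : Option ι) : φ (S.A u v a b) = S'.A (φ u) (φ v) a b := by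
  simp only [Pre.A, map_neg, map_sum, map_mul, (h.graph u v).P, (h.graph u v).D, h.nu]

theorem Hom.a2 (u v : R) : φ (S.a2 u v) = S'.a2 (φ u) (φ v) := by
  simp only [Pre.a2, map_sum, map_mul, h.A]

theorem Hom.hF (F u v : R) : φ (S.hF F u v) = S'.hF (φ F) (φ u) (φ v) := by
  have e : (fun a => φ (S.X u v a)) = S'.X (φ u) (φ v) := funext (h.X u v)
  simp only [Pre.hF, h.dvF, e]

theorem Hom.simY (u v : R) (a : Option ι) : φ (S.simY u v a) = S'.simY (φ u) (φ v) a := by
  simp only [Pre.simY, map_sum, map_sub, map_mul, h.A, (h.graph u v).nab2]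

end Hom

/-! ### the calculus -/

namespace IsDS

variable [Algebra ℝ R] (h : S.IsDS)
include h

theorem D_zero (a : ι) : S.D a 0 = 0 := by simpa using h.const a 0

theorem D_one (a : ι) : S.D a 1 = 0 := by simpa using h.const a 1

theorem D_neg (a : ι) (f : R) : S.D a (-f) = -S.D a f := by
  have := h.add a f (-f)
  rw [add_neg_cancel, h.D_zero] at this
  linear_combination -this

theorem D_sub (a : ι) (f g : R) : S.D a (f - g) = S.D a f - S.D a g := by
  rw [sub_eq_add_neg, h.add, h.D_neg, sub_eq_add_neg]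

theorem D_sum {κ : Type*} (a : ι) (s : Finset κ) (f : κ → R) :
    S.D a (∑ k ∈ s, f k) = ∑ k ∈ s, S.D a (f k) := by
  classical
  induction s using Finset.induction_on with
  | empty => simp [h.D_zero]
  | insert k s hk ih => rw [Finset.sum_insert hk, Finset.sum_insert hk, h.add, ih]

theorem D_two (a : ι) : S.D a 2 = 0 := by
  rw [← one_add_one_eq_two, h.add, h.D_one, add_zero]

theorem D_sq (a : ι) (f : R) : S.D a (f ^ 2) = 2 * f * S.D a f := by
  rw [sq, h.mul]; ring

/-- `P D = D` -/
theorem PD (a : ι) (f : R) : ∑ b, S.P a b * S.D b f = S.D a f := h.tan f a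

/-- `P² = P` -/
theorem PP (a b : ι) : ∑ c, S.P a c * S.P c b = S.P a b := h.tan (S.x b) a

theorem II_symm (a b c : ι) : S.II a b c = S.II b a c := h.hess _ a b

theorem II_eq (a b c : ι) : S.II a b c = ∑ e, S.P b e * S.D a (S.P e c) := rfl

/-- `D P = II + II` -/
theorem DP (a b c : ι) : S.D a (S.P b c) = S.II a b c + S.II a c b := by
  rw [← h.PP b c, h.D_sum, h.II_eq, h.II_eq, ← Finset.sum_add_distrib]
  refine Finset.sum_congr rfl fun e _ => ?_
  rw [h.mul, h.symm e c, h.symm b e, h.symm c e]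
  ring

/-- the Hessian is tangential in the second slot -/
theorem P_hess (f : R) (a b : ι) : ∑ e, S.P b e * S.hess f a e = S.hess f a b := by
  simp only [Pre.hess, Finset.mul_sum, ← mul_assoc]
  rw [Finset.sum_comm]
  exact Finset.sum_congr rfl fun c _ => by rw [← Finset.sum_mul, h.PP]

/-- the Hessian is tangential in the first slot -/
theorem P_hess' (f : R) (a b : ι) : ∑ e, S.P a e * S.hess f e b = S.hess f a b := by
  simp only [h.hess f _ b, h.P_hess]

/-- `II` is normal in the last slot -/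
theorem P_II (a b c : ι) : ∑ e, S.P c e * S.II a b e = 0 := by
  have h3 : ∀ b c, S.II a b c = ∑ e, S.P b e * (S.II a e c + S.II a c e) →
      ∑ e, S.P b e * S.II a e c = S.II a b c → ∑ e, S.P b e * S.II a c e = 0 := by
    intro b c h1 h2
    simp only [mul_add, Finset.sum_add_distrib] at h1
    linear_combination -h2 - h1
  refine h3 c b ?_ (h.P_hess _ a c)
  rw [h.II_eq]; exact Finset.sum_congr rfl fun e _ => by rw [h.DP]

/-- a normal slot kills tangential fields -/
theorem II_tan {Y : ι → R} (hY : S.Tan Y) (a b : ι) : ∑ c, S.II a b c * Y c = 0 := by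
  have : ∑ c, S.II a b c * Y c = ∑ e, (∑ c, S.P e c * S.II a b c) * Y e := by
    simp only [Finset.sum_mul]
    rw [Finset.sum_comm]
    refine Finset.sum_congr rfl fun c _ => ?_
    conv_lhs => rw [← hY c, Finset.mul_sum]
    exact Finset.sum_congr rfl fun e _ => by rw [h.symm c e]; ring
  simp [this, h.P_II]

theorem tr_hess (f : R) : ∑ a, S.hess f a a = S.lap f := by
  simp only [Pre.hess, Pre.lap]
  rw [Finset.sum_comm]
  refine Finset.sum_congr rfl fun c _ => ?_
  rw [← h.PD c (S.D c f)]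
  exact Finset.sum_congr rfl fun a _ => by rw [h.symm]

theorem tr_II (c : ι) : ∑ a, S.II a a c = S.H c := h.tr_hess _

theorem H_eq (c : ι) : S.H c = ∑ a, S.D a (S.P a c) := rfl

theorem H_tan {Y : ι → R} (hY : S.Tan Y) : ∑ c, S.H c * Y c = 0 := by
  simp only [← h.tr_II, Finset.sum_mul]
  rw [Finset.sum_comm]
  simp [h.II_tan hY]

/-- second derivatives: Hessian plus second fundamental form -/
theorem DD (f : R) (a b : ι) : S.D a (S.D b f) = S.hess f a b + ∑ c, S.II a c b * S.D c f := by
  have h1 : S.D a (S.D b f) = ∑ c, (S.P b c * S.D a (S.D c f) + S.D a (S.P b c) * S.D c f) := by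
    conv_lhs => rw [← h.PD b f, h.D_sum]
    exact Finset.sum_congr rfl fun c _ => h.mul _ _ _
  have h2 := h.II_tan (h.tan f) a b
  simp only [h.DP, add_mul, Finset.sum_add_distrib] at h1
  rw [h1, h2, zero_add]
  rfl

theorem scal_eq : S.scal = ∑ c, S.H c * S.H c - ∑ a, ∑ b, ∑ c, S.II a b c * S.II a b c := by
  simp only [Pre.scal, Pre.Ric, Pre.Rm, Finset.sum_sub_distrib, ← h.tr_II, Finset.sum_mul_sum]
  congr 1
  · rw [Finset.sum_comm]
    conv_rhs => rw [Finset.sum_comm]
    exact Finset.sum_congr rfl fun a _ => Finset.sum_comm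
  · rw [Finset.sum_comm]
    exact Finset.sum_congr rfl fun a _ => Finset.sum_congr rfl fun b _ =>
      Finset.sum_congr rfl fun c _ => by rw [h.II_symm b a]

end IsDS

end Crest.Agent.N222.Pre

end
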