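import Mathlib

/-!
# Row 222, the delta-calculus (helper10): FROZEN algebraic definitions

`Pre R ι` : coordinates `x a` and tangential derivatives `D a` of an immersed submanifold of `ℝ^ι`,
acting on a commutative ring `R` of functions.  Everything (projection, second fundamental form,
curvature, Laplacian, graphs) is a polynomial in these data.  `IsDS` = the axioms.
The same definitions are used for `R = (X → ℝ)` (analysis) and for `R` = smooth functions (algebra);
`Pre.Hom` transports identities.
-/

set_option autoImplicit false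

noncomputable section

namespace Crest.Agent.N222

/-- coordinates and tangential derivatives -/
structure Pre (R : Type) (ι : Type) where
  x : ι → R
  D : ι → R → R

namespace Pre

variable {R : Type} [CommRing R] {ι : Type} [Fintype ι] (S : Pre R ι)

/-- orthogonal projection onto the tangent space -/
def P (a b : ι) : R := S.D a (S.x b)

/-- `⟨∇f, ∇g⟩` -/
def gam (f g : R) : R := ∑ a, S.D a f * S.D a g

/-- derivative along the field `Y` -/
def dir (Y : ι → R) (f : R) : R := ∑ a, Y a * S.D a f

/-- divergence -/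
def dv (Y : ι → R) : R := ∑ a, S.D a (Y a)

/-- Laplacian -/
def lap (f : R) : R := ∑ a, S.D a (S.D a f)

/-- Hessian -/
def hess (f : R) (a b : ι) : R := ∑ c, S.P b c * S.D a (S.D c f)

/-- second fundamental form: tangent in `a b`, normal in `c` -/
def II (a b c : ι) : R := S.hess (S.x c) a b

/-- mean curvature vector -/
def H (c : ι) : R := S.lap (S.x c)

/-- Riemann tensor `⟨R(a,b)c,e⟩` (Gauss equation, the sign of the Prelude) -/
def Rm (a b c e : ι) : R := ∑ k, (S.II a e k * S.II b c k - S.II a c k * S.II b e k)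

/-- Ricci tensor -/
def Ric (b c : ι) : R := ∑ a, S.Rm a b c a

/-- scalar curvature -/
def scal : R := ∑ b, S.Ric b b

/-- drift Laplacian `Δ f + ⟨∇F, ∇f⟩` -/
def lapF (F f : R) : R := S.lap f + S.gam F f

/-- drift divergence -/
def dvF (F : R) (Y : ι → R) : R := S.dv Y + S.dir Y F

/-- `(Ric - Hess F)(Y, Y)` -/
def RicF (F : R) (Y : ι → R) : R := ∑ a, ∑ b, (S.Ric a b - S.hess F a b) * (Y a * Y b)

/-- `E(F) = R - 2 Δ F - |∇F|²` -/
def EF (F : R) : R := S.scal - 2 * S.lap F - S.gam F F

/-- `E(b) = R - 2 div b - |b|²` for a tangential drift `b` -/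
def Eb (b : ι → R) : R := S.scal - 2 * S.dv b - ∑ a, b a * b a

/-- tangential fields -/
def Tan (Y : ι → R) : Prop := ∀ a, ∑ b, S.P a b * Y b = Y a

/-- covariant derivative of a 2-tensor -/
def nab2 (T : ι → ι → R) (a b c : ι) : R := ∑ e, ∑ f, S.P b e * S.P c f * S.D a (T e f)

/-! ### graphs: `v` stands for `1 / √(1 + |∇u|²)` -/

/-- `X = ∇u / W` -/
def X (u v : R) (a : ι) : R := v * S.D a u

/-- upward unit normal `(-X, v)` of the graph in `M × ℝ` -/
def nu (u v : R) (c : Option ι) : R := c.elim v fun a => -S.X u v a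

/-- the projection of `M × ℝ` -/
def Pb [DecidableEq ι] (c e : Option ι) : R :=
  c.elim (e.elim 1 fun _ => 0) fun a => e.elim 0 fun b => S.P a b

/-- the graph of `u` -/
def graph (u v : R) : Pre R (Option ι) where
  x c := c.elim u S.x
  D c f := (c.elim 0 fun a => S.D a f) + S.nu u v c * S.dir (S.X u v) f

/-- scalar second fundamental form of the graph in `M × ℝ`; its trace is `div X` -/
def A (u v : R) (a b : Option ι) : R :=
  -∑ c, (S.graph u v).P b c * (S.graph u v).D a (S.nu u v c)

/-- `|A|²` -/
def a2 (u v : R) : R := ∑ a, ∑ b, S.A u v a b * S.A u v a b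

/-- weighted mean curvature `div_F X` of the graph -/
def hF (F u v : R) : R := S.dvF F (S.X u v)

/-- the vector field of the Simons identity -/
def simY (u v : R) (a : Option ι) : R :=
  ∑ b, ∑ c, (S.A u v b c * (S.graph u v).nab2 (S.A u v) b a c
    - S.A u v a c * (S.graph u v).nab2 (S.A u v) b b c)

/-- the axioms -/
structure IsDS [Algebra ℝ R] : Prop where
  add : ∀ a f g, S.D a (f + g) = S.D a f + S.D a g
  mul : ∀ a f g, S.D a (f * g) = f * S.D a g + S.D a f * g
  const : ∀ a (r : ℝ), S.D a (algebraMap ℝ R r) = 0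
  symm : ∀ a b, S.P a b = S.P b a
  tan : ∀ f, S.Tan fun a => S.D a f
  hess : ∀ f a b, S.hess f a b = S.hess f b a

/-- ring maps that commute with the data -/
structure Hom {R' : Type} [CommRing R'] (S' : Pre R' ι) (φ : R →+* R') : Prop where
  x : ∀ a, φ (S.x a) = S'.x a
  D : ∀ a f, φ (S.D a f) = S'.D a (φ f)

end Pre

end Crest.Agent.N222

end
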